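import Vale.Agent.P235.K5.EX.H452.A
import Vale.Agent.P235.K5.H12.Fin
import Vale.Agent.P235.K5.H332.NFin

set_option linter.all false

/-!
# P235, line EX (helper489), row [E7]: from the pieces to the theorem (helper452).
The condition on a triangle is an arbitrary relation `q` between the six numbers
`d x y, d y z, d x z, F x y, F y z, F x z`.
-/

namespace Vale.Agent.P235.K5.EX.H452

open Finset Vale.Agent.P235 Vale.Agent.P235.H684 Vale.Agent.P235.K5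

/-- prescribed metric on a root clique with at most three vertices, with the relation `q` on all
the triangles -/
def PieceQ (q : ℝ → ℝ → ℝ → ℝ → ℝ → ℝ → Prop) (c c' : ℝ) : Prop :=
  ∀ (V : Type) [Finite V] (G : SimpleGraph V), G.Connected → EdgeExact G c →
    ∀ d : V → V → ℝ, IsMet d → Gen G d → ∀ S : Set V, S.ncard ≤ 3 →
      (∀ u ∈ S, ∀ v ∈ S, u ≠ v → G.Adj u v) → ∀ ρ : V → V → ℝ, IsL1 ρ →
        (∀ u ∈ S, ∀ v ∈ S, c' * d u v ≤ ρ u v) → (∀ u ∈ S, ∀ v ∈ S, ρ u v ≤ d u v) →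
        (∀ x ∈ S, ∀ y ∈ S, ∀ z ∈ S, G.Adj x y → G.Adj y z → G.Adj x z →
          q (d x y) (d y z) (d x z) (ρ x y) (ρ y z) (ρ x z)) →
        ∃ F : V → V → ℝ, IsL1 F ∧ (∀ u ∈ S, ∀ v ∈ S, F u v = ρ u v) ∧
          (∀ x y, c' * d x y ≤ F x y) ∧ (∀ x y, F x y ≤ d x y) ∧
          ∀ x y z, G.Adj x y → G.Adj y z → G.Adj x z →
            q (d x y) (d y z) (d x z) (F x y) (F y z) (F x z)

/-- the pieces: connected and edge-exact, no other condition -/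
def PE (c : ℝ) (V : Type) (G : SimpleGraph V) (_ : Set V) : Prop :=
  G.Connected ∧ EdgeExact G c

theorem exists_A_of {q : ℝ → ℝ → ℝ → ℝ → ℝ → ℝ → Prop} {c c' : ℝ} (hPc : PieceQ q c c')
    {V : Type} [Finite V] {H : SimpleGraph V} {n : ℕ} {B : ℕ → Set V} (h : Glued 3 H n B)
    (hB : ∀ t < n, PE c (B t) (H.induce (B t)) {x | (x : V) ∈ Adh B t})
    {d : V → V → ℝ} (hd : IsMet d) (hG : Gen H d) :
    ∃ F : V → V → ℝ, IsL1 F ∧ (∀ x y, F x y ≤ d x y) ∧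
      ∀ t < n, ∀ x ∈ B t, ∀ y ∈ B t, c' * d x y ≤ F x y := by
  refine exists_A_tri h hd hG
    (Q := fun F x y z => q (d x y) (d y z) (d x z) (F x y) (F y z) (F x z)) ?_ ?_
  · intro F F' x y z h1 h2 h3 h4
    rw [← h1, ← h2, ← h3]
    exact h4
  intro t ht ρ hρ hρd hρt
  obtain ⟨hconn, hE⟩ := hB t ht
  have hsub : Adh B t ⊆ B t := fun v hv => hv.1
  have hd' : IsMet fun x y : B t => d x y :=
    ⟨fun x => hd.self _, fun x y hxy => hd.pos _ _ fun e => hxy (Subtype.ext e),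
      fun x y => hd.symm _ _, fun x y z => hd.tri _ _ _⟩
  have hG' : Gen (H.induce (B t)) fun x y : B t => d x y := h.gen_bag hd hG ht
  obtain ⟨F, h1, h2, h3, h4, h5⟩ := hPc (B t) (H.induce (B t)) hconn hE
    (fun x y : B t => d x y) hd' hG' {x | (x : V) ∈ Adh B t}
    (by rw [H500.ncard_sub hsub]; exact h.card t ht)
    (fun u hu v hv huv => h.clique t ht u hu v hv fun e => huv (Subtype.ext e))
    (fun x y : B t => ρ x y) (H500.isL1_restrict hρ _)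
    (fun u hu v hv => (hρd u hu v hv).1) (fun u hu v hv => (hρd u hu v hv).2)
    (fun x hx y hy z hz h1 h2 h3 => hρt x hx y hy z hz h1 h2 h3)
  obtain ⟨F', g1, g2⟩ := extendL1 h1
  refine ⟨F', g1, ?_, ?_, ?_⟩
  · intro x hx y hy
    exact (g2 ⟨x, hsub hx⟩ ⟨y, hsub hy⟩).trans (h2 _ hx _ hy)
  · intro x hx y hy
    have e := g2 ⟨x, hx⟩ ⟨y, hy⟩
    simp only at e
    rw [e]
    exact ⟨h3 ⟨x, hx⟩ ⟨y, hy⟩, h4 ⟨x, hx⟩ ⟨y, hy⟩⟩
  · intro x hx y hy z hz hxy hyz hxz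
    have e1 := g2 ⟨x, hx⟩ ⟨y, hy⟩
    have e2 := g2 ⟨y, hy⟩ ⟨z, hz⟩
    have e3 := g2 ⟨x, hx⟩ ⟨z, hz⟩
    simp only at e1 e2 e3
    show q (d x y) (d y z) (d x z) (F' x y) (F' y z) (F' x z)
    rw [e1, e2, e3]
    exact h5 ⟨x, hx⟩ ⟨y, hy⟩ ⟨z, hz⟩ hxy hyz hxz

/-- **The embedding of a clique sum.** -/
theorem emb {q : ℝ → ℝ → ℝ → ℝ → ℝ → ℝ → Prop} {c c' : ℝ} (hPc : PieceQ q c c') {m : ℕ}
    {V : Type} [Finite V] {H : SimpleGraph V} {B : ℕ → Set V}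
    (h : Glued 3 H m B) (hnew : ∀ t < m, ∃ v ∈ B t, v ∉ Bef B t) {C1 : ℝ} (hC1 : 0 < C1)
    (hN : ∀ (n T : ℕ) (Z : Tor n T 3) (d : Fin n → Fin n → ℝ), Z.Sep d → Z.NLaw d C1)
    (hc : 0 < c') (hc1 : c' ≤ 1)
    (hB : ∀ t < m, PE c (B t) (H.induce (B t)) {x | (x : V) ∈ Adh B t})
    {d : V → V → ℝ} (hd : IsMet d) (hG : Gen H d) :
    R2.H598.Emb d (min (c' / 2) (c' / (8 * (C1 * H254.KK (2 ^ 3)))) / 2) := by
  obtain ⟨T⟩ := h.exists_tree
  obtain ⟨FA, hA, hA1, hA2⟩ := exists_A_of hPc h hB hd hG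
  obtain ⟨FN, hN0, hN1, hN2⟩ := H12.exists_N h hnew T (by norm_num) hC1.le hN hd hG
  have hK : 0 < C1 * H254.KK (2 ^ 3) := mul_pos hC1 (KK_pos _)
  have hN1' : ∀ x y, FN x y ≤ d x y := by
    refine hN0.le_of_gen hG fun u v huv => ?_
    rcases le_total (h.it u) (h.it v) with h1 | h1
    · exact hN1 _ (h.it_lt v) u (h.edge huv h1) v (h.it_mem v)
    · exact hN1 _ (h.it_lt u) u (h.it_mem u) v (h.edge huv.symm h1)
  have hcr := H12.cross h T hd hc hc1 hK hA hN0 hA1 hA2 hN2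
  refine ⟨fun x y => 1 / 2 * (FA x y + FN x y), (hA.add hN0).smul (by norm_num), ?_, ?_⟩
  · intro x y
    have h1 := hcr x y
    show _ ≤ 1 / 2 * (FA x y + FN x y)
    linarith
  · intro x y
    have h1 := hA1 x y
    have h2 := hN1' x y
    show 1 / 2 * (FA x y + FN x y) ≤ _
    linarith

/-- **[E7]** sums over cliques with at most three vertices of connected edge-exact graphs -/
theorem fin {q : ℝ → ℝ → ℝ → ℝ → ℝ → ℝ → Prop} {c c' : ℝ} (hPc : PieceQ q c c')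
    (hc : 0 < c') (hc1 : c' ≤ 1) :
    ∃ K : ℝ, 1 ≤ K ∧ ∀ (V : Type) [Finite V] (G H : SimpleGraph V), G ≤ H → G.Connected →
      CliqueSum 3 (PE c) H → DistortionLE G K := by
  obtain ⟨C1, hC1, hN3⟩ := H332.nthm 3 (by norm_num)
  have hK : 0 < C1 * H254.KK (2 ^ 3) := mul_pos hC1 (KK_pos _)
  set c0 : ℝ := min (c' / 2) (c' / (8 * (C1 * H254.KK (2 ^ 3)))) / 2 with hc0
  have hc00 : 0 < c0 := by
    rw [hc0]
    have : 0 < min (c' / 2) (c' / (8 * (C1 * H254.KK (2 ^ 3)))) :=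
      lt_min (by positivity) (by positivity)
    linarith
  have hc01 : c0 ≤ 1 := by
    rw [hc0]
    have : min (c' / 2) (c' / (8 * (C1 * H254.KK (2 ^ 3)))) ≤ c' / 2 := min_le_left _ _
    linarith
  refine ⟨1 / c0, (one_le_div hc00).2 hc01, ?_⟩
  intro V _ G H hle hconn hCS ℓ hℓ
  obtain ⟨m, B, h, hnew, hB⟩ := hCS.reduce
  have hd := pathDist_isMet hconn hℓ
  have hgenG : Gen G (pathDist G ℓ) := by
    intro f hf x y
    exact pathDist_gen hconn (fun u v huv => (hf u v huv).trans (pathDist_adj hℓ huv)) x y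
  have hgen : Gen H (pathDist G ℓ) := fun f hf => hgenG f (fun u v huv => hf u v (hle huv))
  exact (emb hPc h hnew hC1 hN3 hc hc1 hB hd hgen).embedsL1 hc00

end Vale.Agent.P235.K5.EX.H452
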