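import Vale.Agent.P235.K5.EX.Defs
import Vale.Agent.P235.K5.EX.H452.Fin

set_option linter.all false

/-!
# P235, line EX (helper489), row [E7]: the theorem from `PX3Stmt` and `PX2Stmt` (helper452)
-/

namespace Vale.Agent.P235.K5.EX.H452

open Finset Vale.Agent.P235 Vale.Agent.P235.H684 Vale.Agent.P235.K5 Vale.Agent.P235.K5.EX

/-- `SL` as a relation between six numbers -/
def qSL (dxy dyz dxz Fxy Fyz Fxz : ℝ) : Prop :=
  (Fxy + Fxz - Fyz) / 2 ≤ 4 * ((dxy - Fxy) + (dyz - Fyz) + (dxz - Fxz)) ∨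
  (Fxy + Fyz - Fxz) / 2 ≤ 4 * ((dxy - Fxy) + (dyz - Fyz) + (dxz - Fxz)) ∨
  (Fxz + Fyz - Fxy) / 2 ≤ 4 * ((dxy - Fxy) + (dyz - Fyz) + (dxz - Fxz))

theorem sl_iff {V : Type} (d F : V → V → ℝ) (x y z : V) :
    SL d F x y z ↔ qSL (d x y) (d y z) (d x z) (F x y) (F y z) (F x z) := Iff.rfl

theorem pieceSL (h3 : PX3Stmt) (h2 : PX2Stmt) {c : ℝ} (hc : 0 < c) (hc1 : c ≤ 1) :
    PieceQ qSL c (c / 10 ^ 6) := by
  have hc' : 0 < c / 10 ^ 6 := by positivity
  intro V _ G hconn hE d hd hG S hS hcl ρ hρ hlow hup hq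
  rcases (show S.ncard ≤ 2 ∨ S.ncard = 3 by omega) with h | h
  · exact h2 V G c hc hc1 hE hconn d hd hG S h hcl ρ hρ hlow hup
  · obtain ⟨x, y, z, hxy, hxz, hyz, rfl⟩ := Set.ncard_eq_three.1 h
    let R : Fin 3 → V := ![x, y, z]
    have hRS : Set.range R = {x, y, z} := by
      ext v
      constructor
      · rintro ⟨i, rfl⟩
        fin_cases i
        · exact Or.inl rfl
        · exact Or.inr (Or.inl rfl)
        · exact Or.inr (Or.inr rfl)
      · rintro (rfl | rfl | rfl)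
        · exact ⟨0, rfl⟩
        · exact ⟨1, rfl⟩
        · exact ⟨2, rfl⟩
    have hmem : ∀ i, R i ∈ ({x, y, z} : Set V) := fun i => hRS ▸ Set.mem_range_self i
    have hinj : ∀ i j, i ≠ j → R i ≠ R j := by
      intro i j hij
      fin_cases i <;> fin_cases j
      · exact (hij rfl).elim
      · exact hxy
      · exact hxz
      · exact hxy.symm
      · exact (hij rfl).elim
      · exact hyz
      · exact hxz.symm
      · exact hyz.symm
      · exact (hij rfl).elim
    have hadj : TriAdj G R := fun i j hij => hcl _ (hmem i) _ (hmem j) (hinj i j hij)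
    have hmet : IsMet fun i j : Fin 3 => ρ (R i) (R j) := by
      refine ⟨fun i => hρ.self _, fun i j hij => ?_, fun i j => hρ.symm _ _,
        fun i j k => hρ.tri _ _ _⟩
      exact (mul_pos hc' (hd.pos _ _ (hinj i j hij))).trans_le (hlow _ (hmem i) _ (hmem j))
    have hroot : SLR d R fun i j => ρ (R i) (R j) := by
      have h0 := hq x (hmem 0) y (hmem 1) z (hmem 2) (hadj 0 1 (by decide)) (hadj 1 2 (by decide))
        (hadj 0 2 (by decide))
      have hyx := hρ.symm y x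
      have hzx := hρ.symm z x
      have hzy := hρ.symm z y
      have e0 : ga (fun i j => ρ (R i) (R j)) 0 = (ρ x y + ρ x z - ρ y z) / 2 := rfl
      have e1 : ga (fun i j => ρ (R i) (R j)) 1 = (ρ y z + ρ y x - ρ z x) / 2 := rfl
      have e2 : ga (fun i j => ρ (R i) (R j)) 2 = (ρ z x + ρ z y - ρ x y) / 2 := rfl
      have es : sr d R (fun i j => ρ (R i) (R j)) =
        (d x y - ρ x y) + (d y z - ρ y z) + (d x z - ρ x z) := rfl
      rcases h0 with h0 | h0 | h0
      · refine ⟨0, ?_⟩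
        rw [e0, es]
        exact h0
      · refine ⟨1, ?_⟩
        rw [e1, es, hyx, hzx]
        linarith
      · refine ⟨2, ?_⟩
        rw [e2, es, hzy, hzx]
        linarith
    obtain ⟨F, g1, g2, g3, g4, g5⟩ := h3 V G c hc hc1 hE d hd hG R hadj
      (fun i j => ρ (R i) (R j)) hmet (fun i j => hlow _ (hmem i) _ (hmem j))
      (fun i j => hup _ (hmem i) _ (hmem j)) hroot
    refine ⟨F, g1, ?_, g3, g4, g5⟩
    intro u hu v hv
    rw [← hRS] at hu hv
    obtain ⟨i, rfl⟩ := hu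
    obtain ⟨j, rfl⟩ := hv
    exact g2 i j

/-- **[E7]** sums over cliques with at most three vertices of connected `EdgeExact` graphs -/
theorem e7 (h3 : PX3Stmt) (h2 : PX2Stmt) (c : ℝ) (hc : 0 < c) (hc1 : c ≤ 1) :
    ∃ K : ℝ, 1 ≤ K ∧ ∀ (V : Type) [Finite V] (G H : SimpleGraph V), G ≤ H → G.Connected →
      CliqueSum 3 (PE c) H → DistortionLE G K :=
  fin (pieceSL h3 h2 hc hc1) (by positivity) (by
    have : c / 10 ^ 6 ≤ c := div_le_self hc.le (by norm_num)
    linarith)

end Vale.Agent.P235.K5.EX.H452
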