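import Vale.Agent.P235.K5.EX.H489.TriK
import Vale.Agent.P235.K5.EX.H378.E2
import Vale.Agent.P235.K5.EX.H378.E3
import Vale.Agent.P235.K5.EX.H279.SL
import Vale.Agent.P235.K5.EX.H279.PX3c
import Vale.Agent.P235.K5.EX.H371.PX2
import Vale.Agent.P235.K5.EX.H452.E7

/-!
# P235, line EX (helper489): sums over cliques with at most three vertices of arbitrary connected
`EdgeExact` graphs, no hypothesis left
-/

namespace Vale.Agent.P235.K5.EX.H452

open Vale.Agent.P235 Vale.Agent.P235.K5 Vale.Agent.P235.K5.EX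

theorem px3 : PX3Stmt := EX.H279.px3_of EX.H489.triK EX.H378.shr EX.H378.centre EX.H279.sl

/-- **Line EX, closed.** -/
theorem ex (c : ℝ) (hc : 0 < c) (hc1 : c ≤ 1) :
    ∃ K : ℝ, 1 ≤ K ∧ ∀ (V : Type) [Finite V] (G H : SimpleGraph V), G ≤ H → G.Connected →
      CliqueSum 3 (PE c) H → DistortionLE G K :=
  e7 px3 EX.H371.px2 c hc hc1

end Vale.Agent.P235.K5.EX.H452
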