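import Vale.Agent.P235.K5.H12.A

set_option linter.all false

/-!
# P235, line EX (helper489), row [E7]: the induction over the bags with a condition on the triangles
(helper452)
-/

namespace Vale.Agent.P235.K5.EX.H452

open Finset Vale.Agent.P235 Vale.Agent.P235.K5

/-- **The induction over the bags**, with a condition `Q` on the triangles of `H` which depends only
on the values of the semimetric on the triangle. -/
theorem exists_A_tri {V : Type} [Finite V] {H : SimpleGraph V} {n : ℕ} {B : ℕ → Set V}
    (h : Glued 3 H n B) {d : V → V → ℝ} (hd : IsMet d) (hG : Gen H d) {c : ℝ}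
    {Q : (V → V → ℝ) → V → V → V → Prop}
    (hQ : ∀ (F F' : V → V → ℝ) (x y z : V), F x y = F' x y → F y z = F' y z → F x z = F' x z →
      Q F x y z → Q F' x y z)
    (hP : ∀ t < n, ∀ ρ : V → V → ℝ, IsL1 ρ →
      (∀ x ∈ Adh B t, ∀ y ∈ Adh B t, c * d x y ≤ ρ x y ∧ ρ x y ≤ d x y) →
      (∀ x ∈ Adh B t, ∀ y ∈ Adh B t, ∀ z ∈ Adh B t, H.Adj x y → H.Adj y z → H.Adj x z →
        Q ρ x y z) →
      ∃ F : V → V → ℝ, IsL1 F ∧ (∀ x ∈ Adh B t, ∀ y ∈ Adh B t, F x y = ρ x y) ∧
        (∀ x ∈ B t, ∀ y ∈ B t, c * d x y ≤ F x y ∧ F x y ≤ d x y) ∧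
        ∀ x ∈ B t, ∀ y ∈ B t, ∀ z ∈ B t, H.Adj x y → H.Adj y z → H.Adj x z → Q F x y z) :
    ∃ F : V → V → ℝ, IsL1 F ∧ (∀ x y, F x y ≤ d x y) ∧
      ∀ t < n, ∀ x ∈ B t, ∀ y ∈ B t, c * d x y ≤ F x y := by
  classical
  obtain ⟨T⟩ := h.exists_tree
  have key : ∀ m ≤ n, ∃ F : V → V → ℝ, IsL1 F ∧
      (∀ x ∈ Bef B m, ∀ y ∈ Bef B m, F x y ≤ d x y) ∧
      (∀ x ∈ Bef B m, ∀ y ∈ Bef B m, ∀ z ∈ Bef B m, H.Adj x y → H.Adj y z → H.Adj x z →
        Q F x y z) ∧
      ∀ t < m, ∀ x ∈ B t, ∀ y ∈ B t, c * d x y ≤ F x y := by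
    intro m
    induction m with
    | zero =>
      intro _
      refine ⟨fun _ _ => 0, ⟨Empty, inferInstance, fun _ => 0, fun e => e.elim,
        fun e => e.elim, fun x y => by simp⟩, ?_, ?_, ?_⟩
      · rintro x ⟨s, hs, _⟩
        omega
      · rintro x ⟨s, hs, _⟩
        omega
      · intro t ht
        omega
    | succ m ih =>
      intro hm
      obtain ⟨F₁, hF1, hup, htri, hlow⟩ := ih (by omega)
      have hmn : m < n := by omega
      obtain ⟨F₂, hF2, hag, hb, hbt⟩ := hP m hmn F₁ hF1 (by
        intro x hx y hy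
        refine ⟨?_, hup x hx.2 y hy.2⟩
        rcases Nat.eq_zero_or_pos m with h0 | h0
        · obtain ⟨s, hs, _⟩ := hx.2
          omega
        · exact hlow (T.par m) (T.par_lt m h0 hmn) x (T.adh m h0 hmn hx) y
            (T.adh m h0 hmn hy))
        (fun x hx y hy z hz => htri x hx.2 y hy.2 z hz.2)
      have hS : Bef B m ∩ B m = Adh B m := by
        ext v
        exact ⟨fun hv => ⟨hv.2, hv.1⟩, fun hv => ⟨hv.2, hv.1⟩⟩
      obtain ⟨F, hF, h1, h2⟩ := glue_small (U := Bef B m) (W := B m) hF1 hF2
        (by rw [hS]; exact h.card m hmn) (by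
          rw [hS]
          intro x hx y hy
          exact (hag x hx y hy).symm)
      have hcases : ∀ v ∈ Bef B (m + 1), v ∈ Bef B m ∨ v ∈ B m := by
        rintro v ⟨s, hs, hv⟩
        by_cases e : s = m
        · right; rw [← e]; exact hv
        · left; exact ⟨s, by omega, hv⟩
      have hmix : ∀ x ∈ Bef B m, ∀ y ∈ B m, F x y ≤ d x y := by
        intro x hx y hy
        by_cases hyU : y ∈ Bef B m
        · rw [h1 x hx y hyU]
          exact hup x hx y hyU
        by_cases hxW : x ∈ B m
        · rw [h2 x hxW y hy]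
          exact (hb x hxW y hy).2
        have hiy : h.it y = m := by
          refine le_antisymm (h.it_le hmn hy) ?_
          by_contra hcon
          exact hyU ((h.mem_bef_iff hmn.le).2 (not_le.1 hcon))
        have hys : y ∈ h.Sub T m := by
          show T.Desc m (h.it y)
          rw [hiy]
          exact BTree.Desc.refl m
        have hxs : x ∉ h.Sub T m := by
          intro hcon
          have h3 : m ≤ h.it x := BTree.Desc.le hcon
          have h4 := (h.mem_bef_iff hmn.le).1 hx
          omega
        obtain ⟨a, ha, h5⟩ := h.sep_metric hd hG hys hxs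
        have h6 := hF.tri x a y
        have h7 : F x a ≤ d x a := by
          rw [h1 x hx a ha.2]
          exact hup x hx a ha.2
        have h8 : F a y ≤ d a y := by
          rw [h2 a ha.1 y hy]
          exact (hb a ha.1 y hy).2
        rw [hd.symm y a, hd.symm a x, hd.symm y x] at h5
        linarith
      -- a neighbour of a new vertex is in the bag
      have hnb : ∀ u v, u ∈ Bef B (m + 1) → u ∉ Bef B m → v ∈ Bef B (m + 1) → H.Adj u v →
          v ∈ B m := by
        intro u v hu hu' hv huv
        by_contra hvB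
        exact h.sep m hmn u v ((hcases u hu).resolve_left hu') hu'
          ((hcases v hv).resolve_right hvB) hvB huv
      refine ⟨F, hF, ?_, ?_, ?_⟩
      · intro x hx y hy
        rcases hcases x hx with hx' | hx' <;> rcases hcases y hy with hy' | hy'
        · rw [h1 x hx' y hy']
          exact hup x hx' y hy'
        · exact hmix x hx' y hy'
        · rw [hF.symm, hd.symm]
          exact hmix y hy' x hx'
        · rw [h2 x hx' y hy']
          exact (hb x hx' y hy').2
      · intro x hx y hy z hz hxy hyz hxz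
        have hold : x ∈ Bef B m → y ∈ Bef B m → z ∈ Bef B m → Q F x y z := by
          intro hx' hy' hz'
          exact hQ F₁ F x y z (h1 x hx' y hy').symm (h1 y hy' z hz').symm (h1 x hx' z hz').symm
            (htri x hx' y hy' z hz' hxy hyz hxz)
        have hnew : x ∈ B m → y ∈ B m → z ∈ B m → Q F x y z := by
          intro hx' hy' hz'
          exact hQ F₂ F x y z (h2 x hx' y hy').symm (h2 y hy' z hz').symm (h2 x hx' z hz').symm
            (hbt x hx' y hy' z hz' hxy hyz hxz)
        by_cases hx' : x ∈ Bef B m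
        · by_cases hy' : y ∈ Bef B m
          · by_cases hz' : z ∈ Bef B m
            · exact hold hx' hy' hz'
            · exact hnew (hnb z x hz hz' hx hxz.symm) (hnb z y hz hz' hy hyz.symm)
                ((hcases z hz).resolve_left hz')
          · exact hnew (hnb y x hy hy' hx hxy.symm) ((hcases y hy).resolve_left hy')
              (hnb y z hy hy' hz hyz)
        · exact hnew ((hcases x hx).resolve_left hx') (hnb x y hx hx' hy hxy)
            (hnb x z hx hx' hz hxz)
      · intro t ht x hx y hy
        by_cases e : t = m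
        · rw [e] at hx hy
          rw [h2 x hx y hy]
          exact (hb x hx y hy).1
        · rw [h1 x ⟨t, by omega, hx⟩ y ⟨t, by omega, hy⟩]
          exact hlow t (by omega) x hx y hy
  obtain ⟨F, hF, h1, -, h2⟩ := key n le_rfl
  exact ⟨F, hF, fun x y => h1 x (h.cover x) y (h.cover y), h2⟩

end Vale.Agent.P235.K5.EX.H452
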