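import Vale.Agent.P235.K5.EX.H452.All
import Vale.Agent.P235.K5.H477.EX

/-!
# P235, line EX (helper489): sums over cliques with at most three vertices of arbitrary connected
graphs that satisfy `EdgeIso` with constant `C`, or have at most one root vertex and `c₁ ≤ C`;
no hypothesis left (helper477, helper452)
-/

namespace Vale.Agent.P235.K5.EX.H452

open Vale.Agent.P235 Vale.Agent.P235.K5 Vale.Agent.P235.K5.EX

/-- **Line EX with the root disjunct, closed.** -/
theorem exX (C : ℝ) : ∃ K : ℝ, ∀ (V : Type) [Finite V] (G H : SimpleGraph V), G ≤ H →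
    G.Connected → CliqueSum 3 (H477.GluePieceX C) H → DistortionLE G K :=
  H477.sumX H477.half_SLq (fun _ hc hc1 => pieceSL px3 EX.H371.px2 hc hc1) C

end Vale.Agent.P235.K5.EX.H452
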